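import Vale.Agent.P235.ST.H317.Defs2
import Vale.Agent.P235.ST.H183.SignAvg

/-! P235, (ST) O(1), row r15: `law_start`, `law_step`, `law_zero` from the rows
`rho_scale`, `nxt_le`, `rho_eventually`, `bumps`, `inv_step`. Contains `infconv` (r8). helper160. -/

namespace Vale.Agent.P235.STO.H160

open SimpleGraph

/-! ### costs -/

section cost

variable {V : Type} {G : SimpleGraph V}

theorem cost_nonneg (w : V → ℝ) {x y : V} (p : G.Walk x y) : 0 ≤ cost w p := by
  induction p with
  | nil => exact le_refl _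
  | cons h q ih => exact add_nonneg (abs_nonneg _) ih

theorem cost_append (w : V → ℝ) {x y z : V} (p : G.Walk x y) (q : G.Walk y z) :
    cost w (p.append q) = cost w p + cost w q := by
  induction p with
  | nil => simp [cost]
  | cons h p ih =>
    rw [SimpleGraph.Walk.cons_append]
    show _ + cost w (p.append q) = _ + cost w p + cost w q
    rw [ih q]
    ring

theorem cost_reverse (w : V → ℝ) {x y : V} (p : G.Walk x y) : cost w p.reverse = cost w p := by
  induction p with
  | nil => rfl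
  | @cons a b c h q ih =>
    rw [SimpleGraph.Walk.reverse_cons, cost_append, ih]
    show cost w q + (|w b - w a| + 0) = |w a - w b| + cost w q
    rw [abs_sub_comm]
    ring

/-- row r8 -/
theorem infconv (f E w : V → ℝ) (Λ : ℝ)
    (h : ∀ x y (g : G.Walk x y), |f x - f y| ≤ Λ * cost w g + min (E x) (E y)) :
    ∃ g : V → ℝ, (∀ x, f x ≤ g x ∧ g x ≤ f x + E x) ∧
      ∀ x y, G.Adj x y → |g x - g y| ≤ Λ * |w x - w y| := by
  have hlow : ∀ x (z : Σ y, G.Walk x y), f x ≤ f z.1 + E z.1 + Λ * cost w z.2 := by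
    intro x z
    have h1 := h x z.1 z.2
    have h2 := (abs_le.1 h1).2
    have h3 := min_le_right (E x) (E z.1)
    linarith
  have hbdd : ∀ x, BddBelow (Set.range fun z : Σ y, G.Walk x y =>
      f z.1 + E z.1 + Λ * cost w z.2) := by
    intro x
    refine ⟨f x, ?_⟩
    rintro _ ⟨z, rfl⟩
    exact hlow x z
  have hne : ∀ x, Nonempty (Σ y, G.Walk x y) := fun x => ⟨⟨x, .nil⟩⟩
  set g : V → ℝ := fun x => ⨅ z : Σ y, G.Walk x y, (f z.1 + E z.1 + Λ * cost w z.2) with hg
  have hone : ∀ x y, G.Adj x y → g x ≤ g y + Λ * |w x - w y| := by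
    intro x y hxy
    have := hne y
    rw [← sub_le_iff_le_add]
    refine le_ciInf fun z => ?_
    have h1 := ciInf_le (hbdd x) ⟨z.1, SimpleGraph.Walk.cons hxy z.2⟩
    have h2 : g x ≤ f z.1 + E z.1 + Λ * (|w x - w y| + cost w z.2) := h1
    linarith
  refine ⟨g, fun x => ⟨?_, ?_⟩, fun x y hxy => ?_⟩
  · have := hne x
    exact le_ciInf (hlow x)
  · have h1 := ciInf_le (hbdd x) ⟨x, SimpleGraph.Walk.nil⟩
    have h2 : g x ≤ f x + E x + Λ * 0 := h1
    linarith
  · rw [abs_le]
    have h1 := hone x y hxy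
    have h2 := hone y x hxy.symm
    rw [abs_sub_comm (w y) (w x)] at h2
    constructor <;> linarith

end cost

variable {V : Type} (W : LWorld V)

theorem cost_u {x y : V} (p : W.G.Walk x y) : cost (fun x => (W.u x : ℝ)) p = p.length := by
  induction p with
  | nil => simp [cost]
  | @cons a b c h q ih =>
    show |(W.u a : ℝ) - W.u b| + cost (fun x => (W.u x : ℝ)) q = _
    rw [ih, SimpleGraph.Walk.length_cons]
    have h1 := W.unit a b h
    have h2 : |(W.u a : ℝ) - W.u b| = 1 := by exact_mod_cast h1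
    rw [h2]
    push_cast
    ring

theorem d_le {x y : V} (p : W.G.Walk x y) : W.d x y ≤ p.length := by
  unfold LWorld.d
  exact_mod_cast SimpleGraph.dist_le p

theorem d_comm (x y : V) : W.d x y = W.d y x := by
  unfold LWorld.d
  rw [SimpleGraph.dist_comm]

theorem d_nonneg (x y : V) : 0 ≤ W.d x y := by
  unfold LWorld.d
  positivity

variable [Fintype V]

/-- the scale functions vanish for good -/
theorem rho_zero (hs : ∀ i, W.Scale (W.rho i))
    (hn : ∀ ρ, W.Scale ρ → ∀ x, W.nxt ρ x ≤ 16 * d1 * ρ x) {n : ℕ} (h : ∀ x, W.rho n x = 0)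
    (j : ℕ) (hj : n ≤ j) (x : V) : W.rho j x = 0 := by
  induction j, hj using Nat.le_induction with
  | base => exact h x
  | succ j _ ih =>
    have h1 := hn _ (hs j) x
    rw [ih, mul_zero] at h1
    exact le_antisymm h1 ((hs (j + 1)).nonneg x)

theorem law_start_of (hs : ∀ i, W.Scale (W.rho i))
    (hn : ∀ ρ, W.Scale ρ → ∀ x, W.nxt ρ x ≤ 16 * d1 * ρ x) {n : ℕ}
    (h : ∀ x, W.rho n x = 0) : W.Law n := by
  refine ⟨Unit, inferInstance, inferInstance, fun _ x => (W.u x : ℝ), fun _ => ⟨?_, ?_, ?_⟩,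
    ?_, ?_, ?_⟩
  · intro x y hxy
    have h1 := W.unit x y hxy
    have h2 : |(W.u x : ℝ) - W.u y| = 1 := by exact_mod_cast h1
    rw [← abs_mul_abs_self, h2]
    norm_num
  · intro x
    simp only [sub_self, abs_zero, h x, mul_zero, le_refl]
  · intro p q g _
    rw [cost_u]
    have h1 := d_le W g
    have h2 := d_nonneg W p q
    have h3 : c2 ≤ 1 := by unfold c2; norm_num
    nlinarith
  · intro x
    simp
  · intro x y hxy
    have h1 := W.unit x y hxy
    have h2 : |(W.u x : ℝ) - W.u y| = 1 := by exact_mod_cast h1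
    simp [h2]
  · intro j hj z y ht
    exfalso
    obtain ⟨_, _, _, _, h1, _, h2, _⟩ := ht
    rw [rho_zero W hs hn h j hj z] at h2
    have h3 : (0:ℝ) < r0 := by unfold r0; positivity
    linarith

omit [Fintype V] in
/-- increments along a walk, deterministic family -/
theorem fam_walk {ι : Type} [Fintype ι] {T : ι → V → ℝ} {c : ℝ}
    (h : ∀ x y, W.G.Adj x y → ∑ i, |T i x - T i y| ≤ c) {x y : V} (p : W.G.Walk x y) :
    ∑ i, |T i x - T i y| ≤ c * p.length := by
  induction p with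
  | nil => simp
  | @cons a b e hab q ih =>
    calc ∑ o, |T o a - T o e| ≤ ∑ o, (|T o a - T o b| + |T o b - T o e|) :=
          Finset.sum_le_sum fun o _ => abs_sub_le _ _ _
      _ = ∑ o, |T o a - T o b| + ∑ o, |T o b - T o e| := Finset.sum_add_distrib
      _ ≤ c + c * q.length := add_le_add (h a b hab) ih
      _ = c * ((q.length + 1 : ℕ) : ℝ) := by push_cast; ring
      _ = _ := by rw [SimpleGraph.Walk.length_cons]

/-- sign -/
def sg (b : Bool) : ℝ := if b then 1 else -1

theorem sg_abs (b : Bool) : |sg b| = 1 := by cases b <;> simp [sg]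

omit [Fintype V] in
/-- the signed sum of a family is Lipschitz -/
theorem fam_lip {ι : Type} [Fintype ι] {T : ι → V → ℝ}
    (h : ∀ x y, W.G.Adj x y → ∑ i, |T i x - T i y| ≤ Cf) (ε : ι → Bool) (x y : V) :
    |∑ i, sg (ε i) * T i x - ∑ i, sg (ε i) * T i y| ≤ Cf * W.d x y := by
  obtain ⟨p, hp⟩ := W.conn.exists_walk_length_eq_dist x y
  have h1 := fam_walk W h p
  have h2 : (p.length : ℝ) = W.d x y := by
    unfold LWorld.d
    rw [hp]
  rw [h2] at h1
  refine le_trans ?_ h1
  rw [← Finset.sum_sub_distrib]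
  refine (Finset.abs_sum_le_sum_abs _ _).trans (Finset.sum_le_sum fun i _ => ?_)
  rw [← mul_sub, abs_mul, sg_abs, one_mul]

/-- The tilt of one level. -/
theorem tilt {ρ w : V → ℝ} (hρ : W.Scale ρ) (hρ' : W.Scale (W.nxt ρ))
    (hn : ∀ x, W.nxt ρ x ≤ 16 * d1 * ρ x) (hw : W.Inv (W.nxt ρ) w)
    {ι : Type} [Fintype ι] {T : ι → V → ℝ}
    (h1 : ∀ x y, W.G.Adj x y → ∑ i, |T i x - T i y| ≤ Cf) (h2 : ∀ x, ∑ i, |T i x| ≤ ρ x)
    (ε : ι → Bool) :
    ∃ v : V → ℝ, (∀ x y, W.G.Adj x y → |v x - v y| ≤ e1 * |w x - w y|) ∧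
      (∀ x, |v x| ≤ e1 * ρ x) ∧
      ∀ z y, e1 / 2 ^ 24 * (|∑ i, sg (ε i) * (T i z - T i y)|
        - 2 / 2 ^ 75 * (W.nxt ρ z + W.nxt ρ y)) ≤ |v z - v y| := by
  have hE : ∀ x, 0 ≤ W.nxt ρ x := hρ'.nonneg
  obtain ⟨g, hg1, hg2⟩ := infconv (G := W.G) (fun x => ∑ i, sg (ε i) * T i x)
    (fun x => 1 / 2 ^ 75 * W.nxt ρ x) w (2 ^ 24) (by
      intro x y q
      have hl := fam_lip W h1 ε x y
      have hmin : 0 ≤ min (1 / 2 ^ 75 * W.nxt ρ x) (1 / 2 ^ 75 * W.nxt ρ y) :=
        le_min (by have := hE x; positivity) (by have := hE y; positivity)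
      have hd := d_nonneg W x y
      by_cases c1 : C1 * d1 * W.nxt ρ x ≤ W.d x y
      · have hc := hw.lb x y q c1
        have : Cf * W.d x y ≤ 2 ^ 24 * cost w q := by
          have e : Cf = 2 ^ 24 * c2 := by unfold Cf c2; norm_num
          rw [e, mul_assoc]
          exact mul_le_mul_of_nonneg_left hc (by positivity)
        linarith
      by_cases c2' : C1 * d1 * W.nxt ρ y ≤ W.d x y
      · have hc := hw.lb y x q.reverse (by rw [d_comm W y x]; exact c2')
        rw [cost_reverse, d_comm W y x] at hc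
        have : Cf * W.d x y ≤ 2 ^ 24 * cost w q := by
          have e : Cf = 2 ^ 24 * c2 := by unfold Cf c2; norm_num
          rw [e, mul_assoc]
          exact mul_le_mul_of_nonneg_left hc (by positivity)
        linarith
      · push Not at c1 c2'
        have hc := cost_nonneg w q
        have e : Cf * (C1 * d1) = 1 / 2 ^ 75 := by unfold Cf C1 d1; norm_num
        have hcf : (0:ℝ) ≤ Cf := by unfold Cf; positivity
        have e1' : Cf * W.d x y ≤ 1 / 2 ^ 75 * W.nxt ρ x := by
          rw [← e, mul_assoc, mul_assoc]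
          apply mul_le_mul_of_nonneg_left _ hcf
          linarith
        have e2' : Cf * W.d x y ≤ 1 / 2 ^ 75 * W.nxt ρ y := by
          rw [← e, mul_assoc, mul_assoc]
          apply mul_le_mul_of_nonneg_left _ hcf
          linarith
        have e3 := le_min e1' e2'
        have e4 : 0 ≤ 2 ^ 24 * cost w q := by positivity
        linarith)
  refine ⟨fun x => e1 / 2 ^ 24 * g x, fun x y hxy => ?_, fun x => ?_, fun z y => ?_⟩
  · rw [← mul_sub, abs_mul]
    have h3 := hg2 x y hxy
    have e : |e1 / 2 ^ 24| = e1 / 2 ^ 24 := abs_of_nonneg (by unfold e1; positivity)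
    rw [e]
    calc e1 / 2 ^ 24 * |g x - g y| ≤ e1 / 2 ^ 24 * (2 ^ 24 * |w x - w y|) :=
          mul_le_mul_of_nonneg_left h3 (by unfold e1; positivity)
      _ = e1 * |w x - w y| := by ring
  · rw [abs_mul]
    have e : |e1 / 2 ^ 24| = e1 / 2 ^ 24 := abs_of_nonneg (by unfold e1; positivity)
    rw [e]
    have h3 : |∑ i, sg (ε i) * T i x| ≤ ρ x := by
      refine le_trans (Finset.abs_sum_le_sum_abs _ _) (le_trans (le_of_eq ?_) (h2 x))
      exact Finset.sum_congr rfl fun i _ => by rw [abs_mul, sg_abs, one_mul]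
    have h4 := hg1 x
    have h5 := hn x
    have h6 := hρ.nonneg x
    have h7 : |g x| ≤ 2 * ρ x := by
      have h8 := abs_le.1 h3
      have h9 : 1 / 2 ^ 75 * W.nxt ρ x ≤ ρ x := by
        have hd : (d1 : ℝ) = 1 / 2 ^ 100 := rfl
        rw [hd] at h5
        have := hE x
        nlinarith
      rw [abs_le]
      constructor
      · linarith [h4.1]
      · linarith [h4.2]
    calc e1 / 2 ^ 24 * |g x| ≤ e1 / 2 ^ 24 * (2 * ρ x) :=
          mul_le_mul_of_nonneg_left h7 (by unfold e1; positivity)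
      _ ≤ e1 * ρ x := by
          have : 0 ≤ e1 := by unfold e1; positivity
          have : e1 / 2 ^ 24 * (2 * ρ x) = e1 * ρ x * (2 / 2 ^ 24) := by ring
          rw [this]
          have h10 : 0 ≤ e1 * ρ x := by positivity
          nlinarith
  · rw [← mul_sub, abs_mul]
    have e : |e1 / 2 ^ 24| = e1 / 2 ^ 24 := abs_of_nonneg (by unfold e1; positivity)
    rw [e]
    apply mul_le_mul_of_nonneg_left _ (by unfold e1; positivity)
    have hz := hg1 z
    have hy := hg1 y
    have h3 : ∑ i, sg (ε i) * (T i z - T i y)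
        = ∑ i, sg (ε i) * T i z - ∑ i, sg (ε i) * T i y := by
      rw [← Finset.sum_sub_distrib]
      exact Finset.sum_congr rfl fun i _ => by ring
    rw [h3]
    set a := ∑ i, sg (ε i) * T i z
    set b := ∑ i, sg (ε i) * T i y
    have hEz := hE z
    have hEy := hE y
    have h4 : |a - b| ≤ |g z - g y| + (1 / 2 ^ 75 * W.nxt ρ z + 1 / 2 ^ 75 * W.nxt ρ y) := by
      have h5 := le_abs_self (g z - g y)
      have h6 := neg_abs_le (g z - g y)
      rw [abs_le]
      constructor
      · have : 0 ≤ 1 / 2 ^ 75 * W.nxt ρ y := mul_nonneg (by norm_num) hEy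
        linarith [hz.1, hz.2, hy.1, hy.2]
      · have : 0 ≤ 1 / 2 ^ 75 * W.nxt ρ z := mul_nonneg (by norm_num) hEz
        linarith [hz.1, hz.2, hy.1, hy.2]
    have h5 : (2:ℝ) / 2 ^ 75 * (W.nxt ρ z + W.nxt ρ y)
        = 2 * (1 / 2 ^ 75 * W.nxt ρ z + 1 / 2 ^ 75 * W.nxt ρ y) := by ring
    rw [h5]
    have h6 : 0 ≤ 1 / 2 ^ 75 * W.nxt ρ z + 1 / 2 ^ 75 * W.nxt ρ y :=
      add_nonneg (mul_nonneg (by norm_num) hEz) (mul_nonneg (by norm_num) hEy)
    linarith

theorem abs_pm_ge_left (a b : ℝ) : 2 * |a| ≤ |a + b| + |a - b| := by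
  have := abs_add_le (a + b) (a - b)
  have h : a + b + (a - b) = 2 * a := by ring
  rw [h, abs_mul, abs_two] at this
  exact this

theorem abs_pm_ge_right (a b : ℝ) : 2 * |b| ≤ |a + b| + |a - b| := by
  have := abs_sub (a + b) (a - b)
  have h : a + b - (a - b) = 2 * b := by ring
  rw [h, abs_mul, abs_two] at this
  exact this

theorem law_step_of (hs : ∀ i, W.Scale (W.rho i))
    (hn : ∀ ρ, W.Scale ρ → ∀ x, W.nxt ρ x ≤ 16 * d1 * ρ x)
    (hbumps : ∀ ρ, W.Scale ρ → ∃ (ι : Type) (_ : Fintype ι) (T : ι → V → ℝ),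
      (∀ x y, W.G.Adj x y → ∑ i, |T i x - T i y| ≤ Cf) ∧ (∀ x, ∑ i, |T i x| ≤ ρ x) ∧
      ∀ z y, W.tgt ρ z y → ∃ i, 1 / 2 ^ 32 * W.d z y ≤ |T i z - T i y|)
    (hstep : ∀ {ρ w v : V → ℝ}, W.Scale ρ → W.Inv (W.nxt ρ) w →
      (∀ x y, W.G.Adj x y → |v x - v y| ≤ e1 * |w x - w y|) →
      (∀ x, |v x| ≤ e1 * ρ x) → W.Inv ρ (fun x => w x + v x))
    (i : ℕ) (h : W.Law (i + 1)) : W.Law i := by
  classical
  obtain ⟨Ω, hΩ, hne, w, hinv, hmean, hedge, htgt⟩ := h
  obtain ⟨ι, hι, T, hT1, hT2, hT3⟩ := hbumps _ (hs i)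
  have hinv' : ∀ o, W.Inv (W.nxt (W.rho i)) (w o) := hinv
  choose v hv1 hv2 hv3 using fun (o : Ω) (ε : ι → Bool) =>
    tilt W (hs i) (hs (i + 1)) (hn _ (hs i)) (hinv' o) hT1 hT2 ε
  -- the new law
  let w' : Ω × (ι → Bool) × Bool → V → ℝ := fun s x => w s.1 x + sg s.2.2 * v s.1 s.2.1 x
  have hI : ∀ s, W.Inv (W.rho i) (w' s) := by
    intro s
    refine hstep (v := fun x => sg s.2.2 * v s.1 s.2.1 x) (hs i) (hinv' s.1) ?_ ?_
    · intro x y hxy
      rw [← mul_sub, abs_mul, sg_abs, one_mul]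
      exact hv1 _ _ x y hxy
    · intro x
      rw [abs_mul, sg_abs, one_mul]
      exact hv2 _ _ x
  have hcard : (Fintype.card (Ω × (ι → Bool) × Bool) : ℝ)
      = Fintype.card Ω * (Fintype.card (ι → Bool) * 2) := by
    rw [Fintype.card_prod, Fintype.card_prod, Fintype.card_bool]
    push_cast
    ring
  have hm : ∀ x, ∑ s, w' s x = Fintype.card (Ω × (ι → Bool) × Bool) * (W.u x : ℝ) := by
    intro x
    rw [Fintype.sum_prod_type]
    have h1 : ∀ o, ∑ t : (ι → Bool) × Bool, w' (o, t) x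
        = (Fintype.card (ι → Bool) * 2) * w o x := by
      intro o
      rw [Fintype.sum_prod_type]
      have h2 : ∀ ε : ι → Bool, ∑ b : Bool, w' (o, ε, b) x = 2 * w o x := by
        intro ε
        simp only [w', Fintype.sum_bool, sg, if_true]
        simp
        ring
      simp_rw [h2]
      rw [Finset.sum_const, Finset.card_univ, nsmul_eq_mul]
      ring
    simp_rw [h1]
    rw [← Finset.mul_sum, hmean x, hcard]
    ring
  refine ⟨Ω × (ι → Bool) × Bool, inferInstance, ?_, w', hI, hm, ?_, ?_⟩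
  · obtain ⟨o⟩ := hne
    exact ⟨(o, fun _ => true, true)⟩
  · intro x y hxy
    have h1 := W.unit x y hxy
    have h2 : |(W.u x : ℝ) - W.u y| = 1 := by exact_mod_cast h1
    have h3 : ∀ s, |w' s x - w' s y| = (w' s x - w' s y) * ((W.u x : ℝ) - W.u y) := by
      intro s
      have h4 := (hI s).sign x y hxy
      rw [← abs_of_pos h4, abs_mul, h2, mul_one]
    simp_rw [h3]
    rw [← Finset.sum_mul, Finset.sum_sub_distrib, hm, hm, ← mul_sub]
    have h5 : ((W.u x : ℝ) - W.u y) * ((W.u x : ℝ) - W.u y) = 1 := by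
      rw [← abs_mul_abs_self, h2]
      norm_num
    rw [mul_assoc, h5, mul_one]
  · intro j hj z y ht
    have hsum : ∑ s, |w' s z - w' s y| = ∑ o, ∑ ε : ι → Bool,
        (|(w o z - w o y) + (v o ε z - v o ε y)| + |(w o z - w o y) - (v o ε z - v o ε y)|) := by
      rw [Fintype.sum_prod_type]
      refine Finset.sum_congr rfl fun o _ => ?_
      rw [Fintype.sum_prod_type]
      refine Finset.sum_congr rfl fun ε _ => ?_
      rw [Fintype.sum_bool]
      congr 2
      · simp only [w', sg, if_true]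
        ring
      · simp only [w', sg]
        simp
        ring
    rw [hsum, hcard]
    rcases Nat.lt_or_ge i j with hij | hij
    · -- older targets
      have h1 := htgt j hij z y ht
      have h2 : ∀ o, (Fintype.card (ι → Bool) * 2) * |w o z - w o y| ≤ ∑ ε : ι → Bool,
          (|(w o z - w o y) + (v o ε z - v o ε y)|
            + |(w o z - w o y) - (v o ε z - v o ε y)|) := by
        intro o
        calc (Fintype.card (ι → Bool) * 2) * |w o z - w o y|
            = ∑ _ε : ι → Bool, 2 * |w o z - w o y| := by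
              rw [Finset.sum_const, Finset.card_univ, nsmul_eq_mul]
              ring
          _ ≤ _ := Finset.sum_le_sum fun ε _ => abs_pm_ge_left _ _
      calc _ = (Fintype.card (ι → Bool) * 2 : ℝ)
            * (Fintype.card Ω * (1 / 2 ^ 180 * W.d z y)) := by ring
        _ ≤ (Fintype.card (ι → Bool) * 2 : ℝ) * ∑ o, |w o z - w o y| :=
            mul_le_mul_of_nonneg_left h1 (by positivity)
        _ = ∑ o, (Fintype.card (ι → Bool) * 2 : ℝ) * |w o z - w o y| := Finset.mul_sum _ _ _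
        _ ≤ _ := Finset.sum_le_sum fun o _ => h2 o
    · -- the new target
      have hji : j = i := le_antisymm hij hj
      subst hji
      obtain ⟨k, hk⟩ := hT3 z y ht
      obtain ⟨_, _, _, _, hr, hnz, _, _⟩ := ht
      have hd := d_nonneg W z y
      have hny : W.nxt (W.rho j) y ≤ W.d z y * 2 ^ 23 := by
        have h1 := (abs_le.1 ((hs (j + 1)).lip z y)).1
        have h2 : W.d z y / kap = W.d z y * 2 ^ 22 := by unfold kap; field_simp
        rw [h2] at h1
        have h3 : W.rho (j + 1) = W.nxt (W.rho j) := rfl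
        rw [h3] at h1
        nlinarith
      have h1 : ∀ o, Fintype.card (ι → Bool) * (2 * (1 / 2 ^ 180 * W.d z y)) ≤
          ∑ ε : ι → Bool, (|(w o z - w o y) + (v o ε z - v o ε y)|
            + |(w o z - w o y) - (v o ε z - v o ε y)|) := by
        intro o
        have h2 : ∀ ε : ι → Bool, 2 * (e1 / 2 ^ 24 *
            (|∑ i, sg (ε i) * (T i z - T i y)| - 1 / 2 ^ 50 * W.d z y)) ≤
            |(w o z - w o y) + (v o ε z - v o ε y)|
            + |(w o z - w o y) - (v o ε z - v o ε y)| := by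
          intro ε
          refine le_trans ?_ (abs_pm_ge_right _ _)
          apply mul_le_mul_of_nonneg_left _ (by norm_num)
          refine le_trans ?_ (hv3 o ε z y)
          apply mul_le_mul_of_nonneg_left _ (by unfold e1; positivity)
          nlinarith
        have h3 := H183.sign_avg (fun i => T i z - T i y) k
        have h4 : ∑ ε : ι → Bool, |∑ i, sg (ε i) * (T i z - T i y)|
            = ∑ ε : ι → Bool, |∑ j, (if ε j then (1 : ℝ) else -1) * (T j z - T j y)| := rfl
        have h5 : (1 / 2 ^ 32 * W.d z y) * Fintype.card (ι → Bool)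
            ≤ ∑ ε : ι → Bool, |∑ i, sg (ε i) * (T i z - T i y)| := by
          rw [h4]
          exact le_trans (mul_le_mul_of_nonneg_right hk (Nat.cast_nonneg _)) h3
        calc Fintype.card (ι → Bool) * (2 * (1 / 2 ^ 180 * W.d z y))
            ≤ 2 * (e1 / 2 ^ 24 * ((1 / 2 ^ 32 * W.d z y) * Fintype.card (ι → Bool)
              - Fintype.card (ι → Bool) * (1 / 2 ^ 50 * W.d z y))) := by
                have e : (e1 : ℝ) = 1 / 2 ^ 120 := rfl
                rw [e]
                have : (0:ℝ) ≤ Fintype.card (ι → Bool) * W.d z y := by positivity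
                nlinarith
          _ ≤ 2 * (e1 / 2 ^ 24 * (∑ ε : ι → Bool, |∑ i, sg (ε i) * (T i z - T i y)|
              - Fintype.card (ι → Bool) * (1 / 2 ^ 50 * W.d z y))) := by
                apply mul_le_mul_of_nonneg_left _ (by norm_num)
                apply mul_le_mul_of_nonneg_left _ (by unfold e1; positivity)
                linarith
          _ = ∑ ε : ι → Bool, 2 * (e1 / 2 ^ 24 *
              (|∑ i, sg (ε i) * (T i z - T i y)| - 1 / 2 ^ 50 * W.d z y)) := by
                rw [← Finset.mul_sum, ← Finset.mul_sum, Finset.sum_sub_distrib,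
                  Finset.sum_const, Finset.card_univ, nsmul_eq_mul]
          _ ≤ _ := Finset.sum_le_sum fun ε _ => h2 ε
      calc _ = ∑ _o : Ω, Fintype.card (ι → Bool) * (2 * (1 / 2 ^ 180 * W.d z y)) := by
            rw [Finset.sum_const, Finset.card_univ, nsmul_eq_mul]
            ring
        _ ≤ _ := Finset.sum_le_sum fun o _ => h1 o

theorem law_zero_of (hs : ∀ i, W.Scale (W.rho i))
    (hn : ∀ ρ, W.Scale ρ → ∀ x, W.nxt ρ x ≤ 16 * d1 * ρ x)
    (hev : ∃ n, ∀ x, W.rho n x = 0)
    (hbumps : ∀ ρ, W.Scale ρ → ∃ (ι : Type) (_ : Fintype ι) (T : ι → V → ℝ),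
      (∀ x y, W.G.Adj x y → ∑ i, |T i x - T i y| ≤ Cf) ∧ (∀ x, ∑ i, |T i x| ≤ ρ x) ∧
      ∀ z y, W.tgt ρ z y → ∃ i, 1 / 2 ^ 32 * W.d z y ≤ |T i z - T i y|)
    (hstep : ∀ {ρ w v : V → ℝ}, W.Scale ρ → W.Inv (W.nxt ρ) w →
      (∀ x y, W.G.Adj x y → |v x - v y| ≤ e1 * |w x - w y|) →
      (∀ x, |v x| ≤ e1 * ρ x) → W.Inv ρ (fun x => w x + v x)) : W.Law 0 := by
  obtain ⟨n, hn0⟩ := hev
  have h1 : W.Law n := law_start_of W hs hn hn0
  clear hn0
  induction n with
  | zero => exact h1
  | succ n ih => exact ih (law_step_of W hs hn hbumps hstep n h1)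

end Vale.Agent.P235.STO.H160
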