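import Vale.Agent.P235.ST.H317.Defs2

/-! P235, (ST) O(1), row r16: `partB` from `law_zero` and `exists_level`. helper160. -/

namespace Vale.Agent.P235.STO.H160

open SimpleGraph

variable {V : Type} (W : LWorld V)

/-- sum over a finite law of the increments along a walk -/
theorem sum_walk {Ω : Type} [Fintype Ω] {G : SimpleGraph V} {w : Ω → V → ℝ} {c : ℝ}
    (h : ∀ x y, G.Adj x y → ∑ o, |w o x - w o y| ≤ c) {x y : V} (p : G.Walk x y) :
    ∑ o, |w o x - w o y| ≤ p.length * c := by
  induction p with
  | nil => simp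
  | @cons a b e hab q ih =>
    calc ∑ o, |w o a - w o e| ≤ ∑ o, (|w o a - w o b| + |w o b - w o e|) :=
          Finset.sum_le_sum fun o _ => abs_sub_le _ _ _
      _ = ∑ o, |w o a - w o b| + ∑ o, |w o b - w o e| := Finset.sum_add_distrib
      _ ≤ c + q.length * c := add_le_add (h a b hab) ih
      _ = ((q.length + 1 : ℕ) : ℝ) * c := by push_cast; ring
      _ = _ := by rw [SimpleGraph.Walk.length_cons]

/-- The final theorem of part B from the law of level `0`. -/
theorem partB_of [Fintype V]
    (hlev : ∀ {z y : V}, z ∈ W.N → y ∈ W.N → W.u z = W.u y → W.idx z ≤ W.idx y →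
      r0 ≤ W.d z y → ∃ i, W.tgt (W.rho i) z y)
    (hlaw : W.Law 0) :
    ∃ (Ω : Type) (_ : Fintype Ω) (_ : Nonempty Ω) (w : Ω → V → ℝ),
      (∀ x y, W.G.Adj x y → ∑ o, |w o x - w o y| ≤ Fintype.card Ω) ∧
      ∀ x ∈ W.N, ∀ y ∈ W.N, 2 ^ 92 ≤ W.d x y →
        Fintype.card Ω * (1 / 2 ^ 190 * W.d x y) ≤ ∑ o, |w o x - w o y| := by
  obtain ⟨Ω, hΩ, hne, w, _, hmean, hedge, htgt⟩ := hlaw
  refine ⟨Ω, hΩ, hne, w, fun x y h => (hedge x y h).le, ?_⟩
  -- ordered version
  have main : ∀ x ∈ W.N, ∀ y ∈ W.N, 2 ^ 92 ≤ W.d x y →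
      Fintype.card Ω * (1 / 2 ^ 190 * W.d x y) ≤ ∑ o, |w o x - w o y| := by
    intro x hx y hy hd
    have hc : (0 : ℝ) ≤ Fintype.card Ω := Nat.cast_nonneg _
    have hd0 : 0 ≤ W.d x y := by unfold LWorld.d; positivity
    by_cases h1 : 1 / 2 ^ 184 * W.d x y ≤ |(W.u x : ℝ) - W.u y|
    · -- the heights differ
      calc Fintype.card Ω * (1 / 2 ^ 190 * W.d x y)
          ≤ Fintype.card Ω * |(W.u x : ℝ) - W.u y| := by
            apply mul_le_mul_of_nonneg_left _ hc
            refine le_trans ?_ h1
            apply mul_le_mul_of_nonneg_right _ hd0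
            norm_num
        _ = |∑ o, (w o x - w o y)| := by
            rw [Finset.sum_sub_distrib, hmean, hmean, ← mul_sub, abs_mul, abs_of_nonneg hc]
        _ ≤ ∑ o, |w o x - w o y| := Finset.abs_sum_le_sum_abs _ _
    · push Not at h1
      obtain ⟨z, hz, huz⟩ := W.L_level y hy x hx
      have hzN := (W.L_sub y hy z hz).1
      -- the walk from z to y along the line
      have hzy : ∃ p : W.G.Walk z y, (p.length : ℝ) = |(W.u x : ℝ) - W.u y| := by
        rcases le_total (W.u z) (W.u y) with h2 | h2
        · obtain ⟨p, hp, _⟩ := W.L_path y hy z hz y (W.mem_L y hy) h2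
          refine ⟨p, ?_⟩
          have h3 : ((p.length : ℤ) : ℝ) = ((W.u y - W.u z : ℤ) : ℝ) := by rw [hp]
          have h4 : (W.u z : ℝ) ≤ W.u y := by exact_mod_cast h2
          rw [← huz, abs_of_nonpos (by linarith)]
          push_cast at h3
          linarith
        · obtain ⟨p, hp, _⟩ := W.L_path y hy y (W.mem_L y hy) z hz h2
          refine ⟨p.reverse, ?_⟩
          have h3 : ((p.length : ℤ) : ℝ) = ((W.u z - W.u y : ℤ) : ℝ) := by rw [hp]
          have h4 : (W.u y : ℝ) ≤ W.u z := by exact_mod_cast h2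
          rw [← huz, abs_of_nonneg (by linarith), SimpleGraph.Walk.length_reverse]
          push_cast at h3
          linarith
      obtain ⟨p, hp⟩ := hzy
      have hdzy : W.d z y ≤ |(W.u x : ℝ) - W.u y| := by
        rw [← hp]
        unfold LWorld.d
        exact_mod_cast SimpleGraph.dist_le p
      have hsum : ∑ o, |w o z - w o y| ≤ Fintype.card Ω * |(W.u x : ℝ) - W.u y| := by
        have := sum_walk (fun a b hab => (hedge a b hab).le) p
        rw [hp] at this
        linarith
      have htri : W.d x y ≤ W.d x z + W.d z y := by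
        unfold LWorld.d
        exact_mod_cast W.conn.dist_triangle
      have hr0 : r0 ≤ W.d x z := by
        have : (2 : ℝ) ^ 92 ≤ W.d x y := hd
        unfold r0
        nlinarith
      -- level pair
      have hpair : Fintype.card Ω * (1 / 2 ^ 180 * W.d x z) ≤ ∑ o, |w o x - w o z| := by
        rcases le_total (W.idx x) (W.idx z) with h2 | h2
        · obtain ⟨i, hi⟩ := hlev hx hzN huz.symm h2 hr0
          exact htgt i (Nat.zero_le _) x z hi
        · have hsym : W.d z x = W.d x z := by
            unfold LWorld.d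
            rw [SimpleGraph.dist_comm]
          obtain ⟨i, hi⟩ := hlev hzN hx huz h2 (by rw [hsym]; exact hr0)
          have := htgt i (Nat.zero_le _) z x hi
          rw [hsym] at this
          refine this.trans (le_of_eq ?_)
          exact Finset.sum_congr rfl fun o _ => abs_sub_comm _ _
      have hle : ∑ o, |w o x - w o z| ≤ ∑ o, |w o x - w o y| + ∑ o, |w o z - w o y| := by
        rw [← Finset.sum_add_distrib]
        refine Finset.sum_le_sum fun o _ => ?_
        have := abs_sub_le (w o x) (w o y) (w o z)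
        rw [abs_sub_comm (w o y) (w o z)] at this
        exact this
      have hcard : (0:ℝ) ≤ Fintype.card Ω := hc
      have e1 : Fintype.card Ω * (1 / 2 ^ 190 * W.d x y)
          ≤ Fintype.card Ω * (1 / 2 ^ 180 * W.d x z) - Fintype.card Ω * |(W.u x : ℝ) - W.u y| := by
        rw [← mul_sub]
        apply mul_le_mul_of_nonneg_left _ hcard
        nlinarith
      linarith
  exact main

end Vale.Agent.P235.STO.H160
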